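import Vale.Agent.P130.Morse.Word

/-!
P130: the Riesz product of the flat polynomials and its roots on the circle.
-/

namespace Vale.Agent.P130.Morse

open Finset MeasureTheory AddCircle
open scoped InnerProductSpace ComplexConjugate

noncomputable section

theorem fourier_mul_apply (m n : ℤ) (x : UnitAddCircle) :
    fourier (m + n) x = fourier m x * fourier n x := fourier_add

theorem norm_fourier_apply (n : ℤ) (x : UnitAddCircle) : ‖fourier n x‖ = 1 := Circle.norm_coe _

theorem fourier_pow_apply (n : ℕ) (j : ℕ) (x : UnitAddCircle) :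
    fourier ((j * n : ℕ) : ℤ) x = fourier (n : ℤ) x ^ j := by
  induction j with
  | zero => simp
  | succ j ih => rw [pow_succ, ← ih, ← fourier_mul_apply]; push_cast; ring_nf

namespace Data

variable (D : Data)

/-- The normalised polynomial between the levels `k` and `m`. -/
def R (k m : ℕ) : C(UnitAddCircle, ℂ) :=
  ((Real.sqrt ((D.H k : ℝ) / D.H m) : ℝ) : ℂ) •
    ∑ j ∈ range (D.H m / D.H k), (D.B (j * D.H k) : ℂ) • fourier ((j * D.H k : ℕ) : ℤ)

/-- The modulus of a factor of the Riesz product. -/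
def rho (k : ℕ) (x : UnitAddCircle) : ℝ := ‖D.R k (k + 1) x‖

theorem R_succ_apply (k : ℕ) (x : UnitAddCircle) :
    D.R k (k + 1) x = (∑ j ∈ range (D.N k), (D.eps k j : ℂ) * fourier (D.H k : ℤ) x ^ j) /
      (Real.sqrt (D.N k) : ℂ) := by
  have hH : (D.H k : ℝ) ≠ 0 := Nat.cast_ne_zero.2 (D.H_pos k).ne'
  have hN : D.H (k + 1) / D.H k = D.N k := by rw [D.H_succ, Nat.mul_div_cancel_left _ (D.H_pos k)]
  have hr : Real.sqrt ((D.H k : ℝ) / D.H (k + 1)) = (Real.sqrt (D.N k))⁻¹ := by
    rw [D.H_succ, Nat.cast_mul, div_mul_eq_div_div, div_self hH, one_div, Real.sqrt_inv]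
  rw [R, hN, hr]
  simp only [ContinuousMap.smul_apply, ContinuousMap.sum_apply, smul_eq_mul, Complex.ofReal_inv]
  rw [div_eq_inv_mul]
  refine congrArg _ (sum_congr rfl fun j hj => ?_)
  rw [D.B_block (mem_range.1 hj), fourier_pow_apply]

theorem rho_bound (k : ℕ) (x : UnitAddCircle) : |D.rho k x - 1| ≤ (1 / 2) ^ (k + 2) := by
  refine le_trans ?_ (D.c_bound k).2
  have h := D.flat k (fourier (D.H k : ℤ) x) (norm_fourier_apply _ _)
  rw [rho, D.R_succ_apply, norm_div, Complex.norm_real, Real.norm_eq_abs,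
    abs_of_nonneg (Real.sqrt_nonneg _)]
  exact h

theorem rho_pos (k : ℕ) (x : UnitAddCircle) : 0 < D.rho k x := by
  have h := (abs_le.1 (D.rho_bound k x)).1
  have : ((1 : ℝ) / 2) ^ (k + 2) ≤ 1 / 4 := by
    calc ((1 : ℝ) / 2) ^ (k + 2) ≤ (1 / 2) ^ 2 :=
          pow_le_pow_of_le_one (by norm_num) (by norm_num) (by omega)
      _ = 1 / 4 := by norm_num
  linarith

theorem abs_log_rho (k : ℕ) (x : UnitAddCircle) : |Real.log (D.rho k x)| ≤ (1 / 2) ^ (k + 1) := by
  have h := abs_le.1 (D.rho_bound k x)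
  have hp := D.rho_pos k x
  have hq : ((1 : ℝ) / 2) ^ (k + 2) ≤ 1 / 4 := by
    calc ((1 : ℝ) / 2) ^ (k + 2) ≤ (1 / 2) ^ 2 :=
          pow_le_pow_of_le_one (by norm_num) (by norm_num) (by omega)
      _ = 1 / 4 := by norm_num
  have hh : ((1 : ℝ) / 2) ^ (k + 1) = 2 * (1 / 2) ^ (k + 2) := by ring
  rw [abs_le, hh]
  set e : ℝ := (1 / 2) ^ (k + 2)
  have he : 0 < e := by positivity
  constructor
  · have h1 := Real.one_sub_inv_le_log_of_pos hp
    have h2 : (D.rho k x)⁻¹ ≤ 1 + 2 * e := by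
      rw [inv_le_iff_one_le_mul₀ hp]
      nlinarith
    linarith
  · have h1 := Real.log_le_sub_one_of_pos hp
    linarith

theorem continuous_log_rho (k : ℕ) : Continuous fun x => Real.log (D.rho k x) :=
  ((map_continuous (D.R k (k + 1))).norm).log fun x => (D.rho_pos k x).ne'

theorem summable_half : Summable fun k : ℕ => ((1 : ℝ) / 2) ^ (k + 1) :=
  ((summable_geometric_two).mul_left (1 / 2)).congr fun k => by ring

theorem summable_log_rho (x : UnitAddCircle) : Summable fun k => Real.log (D.rho k x) :=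
  summable_half.of_norm_bounded fun k => D.abs_log_rho k x

/-- The density of the spectral measure. -/
def lam (x : UnitAddCircle) : ℝ := Real.exp (∑' k, Real.log (D.rho k x))

theorem continuous_lam : Continuous D.lam :=
  Real.continuous_exp.comp (continuous_tsum D.continuous_log_rho summable_half
    fun k x => D.abs_log_rho k x)

theorem R_ne (k : ℕ) (x : UnitAddCircle) : D.R k (k + 1) x ≠ 0 :=
  norm_pos_iff.1 (D.rho_pos k x)

/-- The root of the Riesz product from the level `k` on. -/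
def G : ℕ → C(UnitAddCircle, ℂ)
  | 0 => ⟨fun x => (D.lam x : ℂ), Complex.continuous_ofReal.comp D.continuous_lam⟩
  | k + 1 => ⟨fun x => G k x / D.R k (k + 1) x,
      (map_continuous (G k)).div (map_continuous _) (D.R_ne k)⟩

theorem G_step (k : ℕ) (x : UnitAddCircle) : D.R k (k + 1) x * D.G (k + 1) x = D.G k x := by
  simp only [G, ContinuousMap.coe_mk]
  exact mul_div_cancel₀ _ (D.R_ne k x)

theorem norm_G (k : ℕ) (x : UnitAddCircle) :
    ‖D.G k x‖ = Real.exp (∑' l, Real.log (D.rho (l + k) x)) := by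
  induction k with
  | zero => simp [G, lam, Complex.norm_real, abs_of_pos (Real.exp_pos _)]
  | succ k ih =>
    have h := Summable.sum_add_tsum_nat_add (f := fun l => Real.log (D.rho (l + k) x)) 1
      ((summable_nat_add_iff k).2 (D.summable_log_rho x))
    simp only [sum_range_one, Nat.zero_add, add_assoc, Nat.add_comm 1 k] at h
    simp only [G, ContinuousMap.coe_mk, norm_div, ih, ← h, Real.exp_add]
    rw [show ‖D.R k (k + 1) x‖ = D.rho k x from rfl, Real.exp_log (D.rho_pos k x),
      mul_div_cancel_left₀ _ (D.rho_pos k x).ne']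

theorem norm_sq_G (k : ℕ) (x : UnitAddCircle) : |‖D.G k x‖ ^ 2 - 1| ≤ 8 * (1 / 2) ^ k := by
  have hb : |∑' l, Real.log (D.rho (l + k) x)| ≤ (1 / 2) ^ k := by
    have hs : Summable fun l : ℕ => ((1 : ℝ) / 2) ^ (l + k + 1) := (summable_nat_add_iff k).2 summable_half
    refine (norm_tsum_le_tsum_norm ((summable_nat_add_iff k).2 (D.summable_log_rho x)).norm).trans ?_
    refine (Summable.tsum_le_tsum (fun l => D.abs_log_rho (l + k) x)
      ((summable_nat_add_iff k).2 (D.summable_log_rho x)).norm hs).trans_eq ?_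
    rw [tsum_congr fun l => show ((1 : ℝ) / 2) ^ (l + k + 1) = (1 / 2) ^ k * (1 / 2) * (1 / 2) ^ l by ring,
      tsum_mul_left, tsum_geometric_two]
    ring
  have hk : ((1 : ℝ) / 2) ^ k ≤ 1 := pow_le_one₀ (by norm_num) (by norm_num)
  rw [D.norm_G, ← Real.exp_nat_mul]
  push_cast
  set S := ∑' l, Real.log (D.rho (l + k) x)
  rw [abs_le] at hb
  rcases le_or_gt |2 * S| 1 with h | h
  · exact (Real.abs_exp_sub_one_le h).trans (by rw [abs_mul, abs_two]; nlinarith [abs_le.2 hb])
  · have h2 : |2 * S| ≤ 2 * (1 / 2) ^ k := by rw [abs_mul, abs_two]; linarith [abs_le.2 hb]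
    have h3 : Real.exp (2 * S) ≤ Real.exp 2 := Real.exp_le_exp.2 (by linarith)
    have h4 : (1 : ℝ) / 2 < (1 / 2) ^ k := by linarith
    have hk0 : k = 0 := by
      by_contra hne
      have : ((1 : ℝ) / 2) ^ k ≤ 1 / 2 := pow_le_of_le_one (by norm_num) (by norm_num) hne
      linarith
    have h5 : Real.exp 2 ≤ 8 := by
      rw [show (2 : ℝ) = 1 + 1 by norm_num, Real.exp_add]
      nlinarith [Real.exp_one_lt_d9, Real.exp_pos 1]
    rw [hk0, pow_zero, mul_one, abs_le]
    exact ⟨by linarith [Real.exp_pos (2 * S)], by linarith⟩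

theorem refine_G {k m : ℕ} (h : k ≤ m) (x : UnitAddCircle) : D.G k x = D.R k m x * D.G m x := by
  induction m, h using Nat.le_induction with
  | base => simp [R, div_self (Nat.cast_ne_zero.2 (D.H_pos k).ne' : (D.H k : ℝ) ≠ 0),
      Nat.div_self (D.H_pos k), B_zero]
  | succ m hm ih =>
    obtain ⟨r, hr⟩ := D.H_dvd hm
    have hk := D.H_pos k
    rw [ih, ← D.G_step m x, ← mul_assoc]
    congr 1
    have h1 : D.H m / D.H k = r := by rw [hr, Nat.mul_div_cancel_left _ hk]
    have h2 : D.H (m + 1) / D.H k = r * D.N m := by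
      rw [D.H_succ, hr, mul_assoc, Nat.mul_div_cancel_left _ hk]
    have h3 : D.H (m + 1) / D.H m = D.N m := by rw [D.H_succ, Nat.mul_div_cancel_left _ (D.H_pos m)]
    have hs : Real.sqrt ((D.H k : ℝ) / D.H m) * Real.sqrt ((D.H m : ℝ) / D.H (m + 1)) =
        Real.sqrt ((D.H k : ℝ) / D.H (m + 1)) := by
      rw [← Real.sqrt_mul (by positivity), div_mul_div_cancel₀ (Nat.cast_ne_zero.2 (D.H_pos m).ne')]
    simp only [R, ContinuousMap.smul_apply, ContinuousMap.sum_apply, smul_eq_mul, h1, h2, h3]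
    rw [← hs, Complex.ofReal_mul]
    rw [mul_mul_mul_comm]
    congr 1
    simp only [mul_comm r (D.N m), Finset.sum_range]
    rw [← finProdFinEquiv.sum_comp, Fintype.sum_prod_type, Fintype.sum_mul_sum, Finset.sum_comm]
    refine Fintype.sum_congr _ _ fun a => Fintype.sum_congr _ _ fun b => ?_
    have hb : (b : ℕ) * D.H k < D.H m := by
      rw [hr, mul_comm (D.H k)]; exact Nat.mul_lt_mul_of_pos_right b.2 hk
    have he : ((finProdFinEquiv (a, b) : Fin (D.N m * r)) : ℕ) * D.H k =
        (b : ℕ) * D.H k + (a : ℕ) * D.H m := by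
      rw [finProdFinEquiv_apply_val, hr]; ring
    rw [he, D.B_add hb, Complex.ofReal_mul, Nat.cast_add, fourier_mul_apply]
    ring

end Data

end

end Vale.Agent.P130.Morse
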