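import Vale.Agent.P130.Morse.Word
import Vale.Agent.P110.Ultraflat.Final
import Vale.Agent.P110.Ultraflat.Wave
import Vale.Agent.P110.Ultraflat.Core
import Vale.Agent.P110.Ultraflat.Packing
import Vale.Agent.P110.Ultraflat.Fresnel
import Vale.Agent.P110.Ultraflat.Glue
import Vale.Agent.P110.Ultraflat.Layout
import Vale.Agent.P110.Ultraflat.Relaxed
import Vale.Agent.P110.Ultraflat.Rounding
import Vale.Agent.P110.Ultraflat.Spencer

/-!
P130: flat polynomials of dyadic lengths give the word of a Morse cocycle.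
-/

namespace Vale.Agent.P130.Morse

open Finset

theorem flat_normalised (c : ℝ) (hc : 0 < c) : ∃ b0 : ℕ, ∀ b : ℕ, b0 ≤ b → ∃ ε : ℕ → ℝ,
    ε 0 = 1 ∧ (∀ j, ε j = 1 ∨ ε j = -1) ∧ ∀ z : ℂ, ‖z‖ = 1 →
      |‖∑ j ∈ range (2 ^ b), (ε j : ℂ) * z ^ j‖ / Real.sqrt (2 ^ b : ℕ) - 1| ≤ c := by
  obtain ⟨N0, hN0⟩ := (P110.Ultra.answer_of (P110.Ultra.exists_of (P110.Ultra.relaxed_of P110.Ultra.waveStmt
    P110.Ultra.coreStmt P110.Ultra.packingStmt (P110.Ultra.layoutStmt P110.Ultra.fresnelStmt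
      P110.Ultra.glueStmt)) (P110.Ultra.roundingStmt P110.Ultra.spencerStmt))).1 c hc
  refine ⟨N0, fun b hb => ?_⟩
  obtain ⟨e, he, hflat⟩ := hN0 (2 ^ b) (hb.trans b.lt_two_pow_self.le)
  have h0 := he 0 (pow_pos (by norm_num) b)
  refine ⟨fun j => if j < 2 ^ b then e 0 * e j else 1, ?_, fun j => ?_, fun z hz => ?_⟩
  · simp only
    rw [if_pos (pow_pos (by norm_num : (0 : ℕ) < 2) b)]
    rcases h0 with h | h <;> simp [h]
  · simp only
    split_ifs with hj
    · rcases h0 with h | h <;> rcases he j hj with h' | h' <;> simp [h, h']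
    · exact Or.inl rfl
  · have hsum : ∑ j ∈ range (2 ^ b), ((if j < 2 ^ b then e 0 * e j else 1 : ℝ) : ℂ) * z ^ j =
        (e 0 : ℂ) * ∑ j ∈ range (2 ^ b), (e j : ℂ) * z ^ j := by
      rw [mul_sum]
      refine sum_congr rfl fun j hj => ?_
      rw [if_pos (mem_range.1 hj), Complex.ofReal_mul, mul_assoc]
    rw [hsum, norm_mul, Complex.norm_real, Real.norm_eq_abs,
      show |e 0| = 1 by rcases h0 with h | h <;> simp [h], one_mul]
    have hs : 0 < Real.sqrt (2 ^ b : ℕ) := Real.sqrt_pos.2 (Nat.cast_pos.2 (pow_pos (by norm_num) b))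
    obtain ⟨h1, h2⟩ := hflat z hz
    rw [abs_le, le_sub_iff_add_le, sub_le_iff_le_add, le_div_iff₀ hs, div_le_iff₀ hs]
    constructor <;> linarith

theorem exists_data : Nonempty Data := by
  have h := fun k : ℕ => flat_normalised ((1 / 2) ^ (k + 2)) (by positivity)
  choose b0 hb0 using h
  choose eps he0 hes hef using fun k => hb0 k (b0 k + 1) (Nat.le_succ _)
  set a : ℕ → ℕ := fun k => ∑ l ∈ range k, (b0 l + 1) with ha
  have hsub : ∀ k, a (k + 1) - a k = b0 k + 1 := fun k => by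
    simp only [ha, sum_range_succ]; omega
  exact ⟨{
    a := a
    eps := eps
    c := fun k => (1 / 2) ^ (k + 2)
    a_zero := by simp [ha]
    a_lt := fun k => by simp only [ha, sum_range_succ]; omega
    eps_zero := he0
    eps_sign := hes
    c_bound := fun k => ⟨by positivity, le_rfl⟩
    flat := fun k z hz => by rw [hsub]; exact hef k z hz }⟩

end Vale.Agent.P130.Morse
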