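import Vale.Agent.P130.Morse.Word

/-!
P130: what the odometer with the Morse cocycle provides.
-/

namespace Vale.Agent.P130.Morse

open Finset MeasureTheory
open scoped InnerProductSpace

noncomputable section

/-- The dyadic roots of unity. -/
def dyadicRoots : Set ℂ := {z | ∃ m : ℕ, z ^ 2 ^ m = 1}

/-- The Morse extension of the dyadic odometer: its towers and the eigenfunctions of the odometer. -/
def SpaceStmt (D : Data) : Prop :=
  ∃ (X : Type) (_ : MeasurableSpace X) (_ : StandardBorelSpace X) (μ : Measure X)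
    (_ : IsProbabilityMeasure μ) (_ : NullSingletonClass μ) (T : X ≃ᵐ X) (hT : MeasurePreserving T μ μ)
    (v : ℕ → ℕ → Lp ℂ 2 μ) (χ : dyadicRoots → Lp ℂ 2 μ),
    (∀ k, Orthonormal ℂ fun i : Fin (D.H k) => v k i) ∧
    (∀ k m, k ≤ m → ∀ i < D.H k, v k i = ((Real.sqrt ((D.H k : ℝ) / D.H m) : ℝ) : ℂ) •
      ∑ j ∈ range (D.H m / D.H k), (D.B (j * D.H k) : ℂ) • v m (i + j * D.H k)) ∧
    (∀ k i, i + 1 < D.H k → Lp.compMeasurePreserving T hT (v k (i + 1)) = v k i) ∧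
    Orthonormal ℂ χ ∧
    (∀ z : dyadicRoots, Lp.compMeasurePreserving T hT (χ z) = (z : ℂ) • χ z) ∧
    (∀ k, ∀ i < D.H k, ∀ z : dyadicRoots, ⟪v k i, χ z⟫_ℂ = 0) ∧
    (Submodule.span ℂ (Set.range χ ∪ {f | ∃ k, ∃ i < D.H k, f = v k i}))ᗮ = ⊥

end

end Vale.Agent.P130.Morse
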