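import Vale.Agent.P130.Morse.Interface

/-!
P130: the dyadic odometer extended by the Morse cocycle of the word.

The space is `(ℕ → Bool) × Bool` with the fair product measure. All functions needed depend only on
finitely many coordinates, so they are built from the cylinder map of a level.
-/

namespace Vale.Agent.P130.Morse

open Finset MeasureTheory
open scoped InnerProductSpace ENNReal

noncomputable section

/-- The phase space. -/
abbrev Pt : Type := (ℕ → Bool) × Bool

/-- The fair coin. -/
def coin : Measure Bool := (PMF.uniformOfFintype Bool).toMeasure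

instance : IsProbabilityMeasure coin := PMF.toMeasure.isProbabilityMeasure _

theorem coin_singleton (b : Bool) : coin {b} = 2⁻¹ := by
  rw [coin, PMF.toMeasure_apply_singleton _ _ (measurableSet_singleton b),
    PMF.uniformOfFintype_apply]
  simp

/-- The measure of the odometer. -/
def base : Measure (ℕ → Bool) := Measure.infinitePi fun _ => coin

instance : IsProbabilityMeasure base := by unfold base; infer_instance

/-- The measure of the extension. -/
def vol : Measure Pt := base.prod coin

instance : IsProbabilityMeasure vol := by unfold vol; infer_instance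

/-- The number read from the first `m` digits. -/
def pos (m : ℕ) (x : ℕ → Bool) : ℕ := ∑ i ∈ range m, if x i then 2 ^ i else 0

theorem pos_succ (m : ℕ) (x : ℕ → Bool) :
    pos (m + 1) x = pos m x + if x m then 2 ^ m else 0 := sum_range_succ _ _

theorem pos_lt (m : ℕ) (x : ℕ → Bool) : pos m x < 2 ^ m := by
  induction m with
  | zero => simp [pos]
  | succ m ih => rw [pos_succ, pow_succ]; split_ifs <;> omega

theorem pos_testBit {m : ℕ} (x : ℕ → Bool) {n : ℕ} (hn : n < m) :
    (pos m x).testBit n = x n := by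
  induction m with
  | zero => omega
  | succ m ih =>
    rw [pos_succ]
    rcases Nat.lt_succ_iff_lt_or_eq.1 hn with h | h
    · by_cases hx : x m = true
      · rw [if_pos hx, add_comm, Nat.testBit_two_pow_add_gt h, ih h]
      · rw [if_neg hx, add_zero, ih h]
    · subst h
      by_cases hx : x n = true
      · rw [if_pos hx, add_comm, Nat.testBit_two_pow_add_eq,
          Nat.testBit_lt_two_pow (pos_lt n x), hx]
        rfl
      · rw [if_neg hx, add_zero, Nat.testBit_lt_two_pow (pos_lt n x)]
        simpa using hx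

theorem pos_mod {k m : ℕ} (h : k ≤ m) (x : ℕ → Bool) : pos m x % 2 ^ k = pos k x := by
  induction m, h using Nat.le_induction with
  | base => exact Nat.mod_eq_of_lt (pos_lt k x)
  | succ m hm ih =>
    rw [pos_succ, Nat.add_mod, ih]
    have : (if x m then 2 ^ m else 0) % 2 ^ k = 0 := by
      split_ifs
      · exact Nat.mod_eq_zero_of_dvd (pow_dvd_pow 2 hm)
      · simp
    rw [this, add_zero, Nat.mod_eq_of_lt (pos_lt k x)]

theorem measurable_pos (m : ℕ) : Measurable (pos m) := by
  unfold pos
  refine Finset.measurable_sum _ fun i _ => ?_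
  exact (measurable_of_countable fun b : Bool => if b then 2 ^ i else 0).comp (measurable_pi_apply i)

theorem base_pos (m i : ℕ) (hi : i < 2 ^ m) : base (pos m ⁻¹' {i}) = (2 ^ m : ℝ≥0∞)⁻¹ := by
  have h : pos m ⁻¹' {i} = Set.pi (range m : Set ℕ) (fun n => {i.testBit n}) := by
    ext x
    simp only [Set.mem_preimage, Set.mem_singleton_iff, Set.mem_pi, Finset.mem_coe, mem_range]
    constructor
    · rintro rfl n hn
      exact (pos_testBit x hn).symm
    · intro hx
      refine Nat.eq_of_testBit_eq fun n => ?_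
      rcases lt_or_ge n m with hn | hn
      · rw [pos_testBit x hn, hx n hn]
      · rw [Nat.testBit_lt_two_pow ((pos_lt m x).trans_le (Nat.pow_le_pow_right (by norm_num) hn)),
          Nat.testBit_lt_two_pow (hi.trans_le (Nat.pow_le_pow_right (by norm_num) hn))]
  rw [h, base, Measure.infinitePi_pi _ (fun n _ => measurableSet_singleton _)]
  simp [coin_singleton, ENNReal.inv_pow]

theorem map_pos (m : ℕ) :
    base.map (pos m) = ∑ i ∈ range (2 ^ m), (2 ^ m : ℝ≥0∞)⁻¹ • Measure.dirac i := by
  refine Measure.ext_of_singleton fun j => ?_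
  rw [Measure.map_apply (measurable_pos m) (measurableSet_singleton j), Measure.finsetSum_apply]
  simp only [Measure.smul_apply, Measure.dirac_apply' _ (measurableSet_singleton j), smul_eq_mul]
  rcases lt_or_ge j (2 ^ m) with hj | hj
  · rw [base_pos m j hj, sum_eq_single j]
    · simp
    · intro b _ hb
      simp [hb]
    · simp [hj]
  · rw [show pos m ⁻¹' {j} = ∅ by
      ext x; simp; have := pos_lt m x; omega]
    rw [measure_empty, sum_eq_zero]
    intro b hb
    have : b < 2 ^ m := mem_range.1 hb
    simp [show b ≠ j by omega]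

/-- The odometer. -/
def up (x : ℕ → Bool) (n : ℕ) : Bool := xor (x n) (decide (∀ i < n, x i = true))

/-- The inverse of the odometer. -/
def down (x : ℕ → Bool) (n : ℕ) : Bool := xor (x n) (decide (∀ i < n, x i = false))

theorem up_low (x : ℕ → Bool) (n : ℕ) :
    (∀ i < n, up x i = false) ↔ ∀ i < n, x i = true := by
  induction n with
  | zero => simp
  | succ n ih =>
    simp only [Nat.forall_lt_succ_right, ih]
    constructor
    · rintro ⟨h, hn⟩
      refine ⟨h, ?_⟩
      simp only [up, decide_eq_true h] at hn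
      simpa using hn
    · rintro ⟨h, hn⟩
      refine ⟨h, ?_⟩
      simp [up, hn, show decide (∀ i < n, x i = true) = true from decide_eq_true h]

theorem down_low (x : ℕ → Bool) (n : ℕ) :
    (∀ i < n, down x i = true) ↔ ∀ i < n, x i = false := by
  induction n with
  | zero => simp
  | succ n ih =>
    simp only [Nat.forall_lt_succ_right, ih]
    constructor
    · rintro ⟨h, hn⟩
      refine ⟨h, ?_⟩
      simp only [down, decide_eq_true h] at hn
      simpa using hn
    · rintro ⟨h, hn⟩
      refine ⟨h, ?_⟩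
      simp [down, hn, show decide (∀ i < n, x i = false) = true from decide_eq_true h]

theorem down_up (x : ℕ → Bool) : down (up x) = x := by
  funext n
  rw [down, up]
  simp only [up_low x n]
  simp

theorem up_down (x : ℕ → Bool) : up (down x) = x := by
  funext n
  rw [up, down]
  simp only [down_low x n]
  simp

theorem measurable_up : Measurable up := by
  refine measurable_pi_lambda _ fun n => ?_
  exact (measurable_of_countable fun q : (Fin (n + 1) → Bool) =>
    xor (q ⟨n, by omega⟩) (decide (∀ (i : ℕ) (hi : i < n), q ⟨i, by omega⟩ = true))).comp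
      (measurable_pi_lambda (fun (x : ℕ → Bool) (i : Fin (n + 1)) => x i.1) fun i => measurable_pi_apply i.1)

theorem measurable_down : Measurable down := by
  refine measurable_pi_lambda _ fun n => ?_
  exact (measurable_of_countable fun q : (Fin (n + 1) → Bool) =>
    xor (q ⟨n, by omega⟩) (decide (∀ (i : ℕ) (hi : i < n), q ⟨i, by omega⟩ = false))).comp
      (measurable_pi_lambda (fun (x : ℕ → Bool) (i : Fin (n + 1)) => x i.1) fun i => measurable_pi_apply i.1)

theorem pos_all (m : ℕ) (x : ℕ → Bool) :
    pos m x + 1 = 2 ^ m ↔ ∀ i < m, x i = true := by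
  induction m with
  | zero => simp [pos]
  | succ m ih =>
    have := pos_lt m x
    rw [pos_succ, pow_succ, Nat.forall_lt_succ_right, ← ih]
    by_cases hx : x m = true
    · simp only [hx, if_true, and_true]; omega
    · simp only [hx, Bool.false_eq_true, if_false, and_false, iff_false]; omega

theorem pos_up (m : ℕ) (x : ℕ → Bool) : pos m (up x) = (pos m x + 1) % 2 ^ m := by
  induction m with
  | zero => simp [pos]
  | succ m ih =>
    have hlt := pos_lt m x
    rw [pos_succ, pos_succ, ih, pow_succ]
    by_cases hall : ∀ i < m, x i = true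
    · have h1 := (pos_all m x).2 hall
      have h2 : up x m = !(x m) := by rw [up, decide_eq_true hall, Bool.xor_true]
      rw [h1, Nat.mod_self, h2]
      by_cases hx : x m = true
      · rw [if_neg (by simp [hx]), if_pos hx, show pos m x + 2 ^ m + 1 = 2 ^ m * 2 by omega]
        simp
      · rw [if_pos (by simp [hx]), if_neg hx, Nat.add_zero, h1, Nat.mod_eq_of_lt (by omega)]
        simp
    · have h1 : pos m x + 1 ≠ 2 ^ m := fun h => hall ((pos_all m x).1 h)
      have h2 : up x m = x m := by rw [up, decide_eq_false hall, Bool.xor_false]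
      rw [h2, Nat.mod_eq_of_lt (show pos m x + 1 < 2 ^ m by omega),
        Nat.mod_eq_of_lt (by split_ifs <;> omega)]
      omega

theorem map_up : base.map up = base := by
  refine Measure.eq_infinitePi _ fun s t ht => ?_
  rw [← Measure.infinitePi_pi _ (fun i _ => ht i), ← base,
    Measure.map_apply measurable_up (MeasurableSet.pi s.countable_toSet fun i _ => ht i)]
  set m := s.sup id + 1 with hm
  set A : Set ℕ := {p | ∀ n ∈ s, p.testBit n ∈ t n} with hA
  have hset : Set.pi (s : Set ℕ) t = pos m ⁻¹' A := by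
    ext x
    simp only [Set.mem_pi, Finset.mem_coe, Set.mem_preimage, hA, Set.mem_ofPred_eq]
    refine forall₂_congr fun n hn => ?_
    rw [pos_testBit x (by have : n ≤ s.sup id := Finset.le_sup (f := id) hn; omega)]
  have hmap : (base.map up).map (pos m) = base.map (pos m) := by
    rw [Measure.map_map (measurable_pos m) measurable_up,
      show pos m ∘ up = (fun p => (p + 1) % 2 ^ m) ∘ pos m from funext fun x => pos_up m x,
      ← Measure.map_map (measurable_of_countable _) (measurable_pos m), map_pos,
      Measure.map_finset_sum (measurable_of_countable _).aemeasurable]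
    simp only [Measure.map_smul, Measure.map_dirac]
    have hperm := Finset.sum_nbij' (s := range (2 ^ m)) (t := range (2 ^ m))
      (f := fun p => (2 ^ m : ℝ≥0∞)⁻¹ • Measure.dirac ((p + 1) % 2 ^ m))
      (g := fun p => (2 ^ m : ℝ≥0∞)⁻¹ • Measure.dirac p)
      (fun p => (p + 1) % 2 ^ m) (fun p => (p + (2 ^ m - 1)) % 2 ^ m)
      (fun p _ => by simp [Nat.mod_lt]) (fun p _ => by simp [Nat.mod_lt])
      (fun p hp => by
        have hp := mem_range.1 hp
        rw [Nat.mod_add_mod, show p + 1 + (2 ^ m - 1) = p + 2 ^ m by omega, Nat.add_mod_right,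
          Nat.mod_eq_of_lt hp])
      (fun p hp => by
        have hp := mem_range.1 hp
        rw [Nat.mod_add_mod, show p + (2 ^ m - 1) + 1 = p + 2 ^ m by omega, Nat.add_mod_right,
          Nat.mod_eq_of_lt hp])
      (fun p _ => rfl)
    exact hperm
  have hAm : MeasurableSet A := A.to_countable.measurableSet
  rw [hset, ← Measure.map_apply measurable_up (measurable_pos m hAm),
    ← Measure.map_apply (measurable_pos m) hAm, hmap, Measure.map_apply (measurable_pos m) hAm]

namespace Data

variable (D : Data)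

/-- The positions at which the cocycle is `-1`. -/
def flipSet : Set (ℕ → Bool) :=
  {x | ∃ k, pos (D.a k) x + 1 < D.H k ∧ D.B (pos (D.a k) x + 1) * D.B (pos (D.a k) x) = -1}

open Classical in
/-- The cocycle. -/
def flip (x : ℕ → Bool) : Bool := decide (x ∈ D.flipSet)

theorem measurable_flip : Measurable D.flip := by
  refine measurable_to_bool ?_
  have : D.flip ⁻¹' {true} =
      ⋃ k, pos (D.a k) ⁻¹' {p | p + 1 < D.H k ∧ D.B (p + 1) * D.B p = -1} := by
    ext x
    simp only [flip, flipSet, Set.mem_preimage, Set.mem_singleton_iff, Set.mem_iUnion,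
      Set.mem_ofPred_eq]
    classical exact decide_eq_true_iff
  rw [this]
  exact MeasurableSet.iUnion fun k => measurable_pos _ (Set.to_countable _).measurableSet

theorem jump_eq {k m : ℕ} (hkm : k ≤ m) {x : ℕ → Bool} (h : pos (D.a k) x + 1 < D.H k) :
    pos (D.a m) x + 1 < D.H m ∧ D.B (pos (D.a m) x + 1) * D.B (pos (D.a m) x) =
      D.B (pos (D.a k) x + 1) * D.B (pos (D.a k) x) := by
  have hmod : pos (D.a m) x % D.H k = pos (D.a k) x := pos_mod (D.a_mono hkm) x
  have hlt : pos (D.a m) x < D.H m := pos_lt _ x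
  obtain ⟨r, hr⟩ := D.H_dvd hkm
  set p := pos (D.a k) x
  set q := pos (D.a m) x
  have hq : q = p + q / D.H k * D.H k := by
    rw [← hmod, mul_comm]; exact (Nat.mod_add_div q _).symm
  constructor
  · by_contra hc
    have heq : q + 1 = D.H m := by omega
    have h1 : (q + 1) % D.H k = 0 := by rw [heq, hr, Nat.mul_mod_right]
    rw [Nat.add_mod, hmod, Nat.mod_eq_of_lt (show 1 < D.H k by omega), Nat.mod_eq_of_lt h] at h1
    omega
  · rw [hq, show p + q / D.H k * D.H k + 1 = p + 1 + q / D.H k * D.H k by omega,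
      D.B_add h, D.B_add (show p < D.H k by omega)]
    linear_combination D.B (p + 1) * D.B p * D.B_sq (q / D.H k * D.H k)

theorem flip_eq {k : ℕ} {x : ℕ → Bool} (h : pos (D.a k) x + 1 < D.H k) :
    (if D.flip x then (-1 : ℝ) else 1) = D.B (pos (D.a k) x + 1) * D.B (pos (D.a k) x) := by
  have hsign : D.B (pos (D.a k) x + 1) * D.B (pos (D.a k) x) = 1 ∨
      D.B (pos (D.a k) x + 1) * D.B (pos (D.a k) x) = -1 := by
    rcases D.B_sign (pos (D.a k) x + 1) with h1 | h1 <;>
      rcases D.B_sign (pos (D.a k) x) with h2 | h2 <;> simp [h1, h2]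
  have hiff : x ∈ D.flipSet ↔ D.B (pos (D.a k) x + 1) * D.B (pos (D.a k) x) = -1 := by
    refine ⟨fun ⟨l, hl, hv⟩ => ?_, fun hv => ⟨k, h, hv⟩⟩
    rw [← (D.jump_eq (le_max_left k l) h).2, (D.jump_eq (le_max_right k l) hl).2, hv]
  rcases hsign with hs | hs <;> simp [flip, hiff, hs]; norm_num

/-- The extension as an equivalence. -/
def shift : Pt ≃ᵐ Pt where
  toFun p := (up p.1, xor p.2 (D.flip p.1))
  invFun p := (down p.1, xor p.2 (D.flip (down p.1)))
  left_inv p := by simp [down_up]
  right_inv p := by simp [up_down]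
  measurable_toFun := (measurable_up.comp measurable_fst).prodMk
    ((measurable_of_countable fun q : Bool × Bool => xor q.1 q.2).comp
      (measurable_snd.prodMk (D.measurable_flip.comp measurable_fst)))
  measurable_invFun := (measurable_down.comp measurable_fst).prodMk
    ((measurable_of_countable fun q : Bool × Bool => xor q.1 q.2).comp
      (measurable_snd.prodMk (D.measurable_flip.comp (measurable_down.comp measurable_fst))))

theorem shift_preserving : MeasurePreserving D.shift vol vol := by
  have hg : ∀ b : Bool, coin.map (fun s => xor s b) = coin := by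
    intro b
    refine Measure.ext_of_singleton fun s => ?_
    rw [Measure.map_apply (measurable_of_countable _) (measurableSet_singleton s),
      show (fun t => xor t b) ⁻¹' {s} = {xor s b} by ext t; cases t <;> cases b <;> cases s <;> simp,
      coin_singleton, coin_singleton]
  exact MeasurePreserving.skew_product (g := fun x s => xor s (D.flip x))
    ⟨measurable_up, map_up⟩
    ((measurable_of_countable fun q : Bool × Bool => xor q.1 q.2).comp
      (measurable_snd.prodMk (D.measurable_flip.comp measurable_fst)))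
    (Filter.Eventually.of_forall fun x => hg _)

end Data

/-- The function of a level. -/
def lev (m : ℕ) (g : ℕ → Bool → ℂ) : Pt → ℂ := fun p => g (pos m p.1) p.2

theorem measurable_lev (m : ℕ) (g : ℕ → Bool → ℂ) : Measurable (lev m g) :=
  (measurable_of_countable fun q : ℕ × Bool => g q.1 q.2).comp
    ((measurable_pos m).comp measurable_fst |>.prodMk measurable_snd)

theorem memLp_lev (m : ℕ) (g : ℕ → Bool → ℂ) : MemLp (lev m g) 2 vol := by
  refine MemLp.of_bound (measurable_lev m g).aestronglyMeasurable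
    (∑ i ∈ range (2 ^ m), (‖g i true‖ + ‖g i false‖)) (Filter.Eventually.of_forall fun p => ?_)
  refine le_trans ?_ (single_le_sum (f := fun i => ‖g i true‖ + ‖g i false‖)
    (fun i _ => add_nonneg (norm_nonneg _) (norm_nonneg _)) (mem_range.2 (pos_lt m p.1)))
  obtain ⟨x, s⟩ := p
  cases s <;> simp [lev]

/-- The vector of a level. -/
def cyl (m : ℕ) : (ℕ → Bool → ℂ) →ₗ[ℂ] Lp ℂ 2 vol where
  toFun g := (memLp_lev m g).toLp _
  map_add' g h := MemLp.toLp_add (memLp_lev m g) (memLp_lev m h)
  map_smul' c g := MemLp.toLp_const_smul c (memLp_lev m g)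

theorem cyl_eq_of {m m' : ℕ} {g g' : ℕ → Bool → ℂ}
    (h : ∀ p : Pt, lev m g p = lev m' g' p) : cyl m g = cyl m' g' :=
  (MemLp.toLp_eq_toLp_iff (memLp_lev m g) (memLp_lev m' g')).2 (Filter.Eventually.of_forall h)

theorem cyl_congr {m : ℕ} {g g' : ℕ → Bool → ℂ}
    (h : ∀ i < 2 ^ m, ∀ s, g i s = g' i s) : cyl m g = cyl m g' :=
  cyl_eq_of fun p => h _ (pos_lt m p.1) p.2

theorem cyl_lift {k m : ℕ} (h : k ≤ m) (g : ℕ → Bool → ℂ) :
    cyl k g = cyl m fun i s => g (i % 2 ^ k) s :=
  cyl_eq_of fun p => by simp [lev, pos_mod h]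

theorem inner_cyl (m : ℕ) (g g' : ℕ → Bool → ℂ) :
    ⟪cyl m g, cyl m g'⟫_ℂ = ((2 ^ m : ℂ)⁻¹) * ∑ i ∈ range (2 ^ m),
      (starRingEnd ℂ (g i true) * g' i true + starRingEnd ℂ (g i false) * g' i false) / 2 := by
  set F : ℕ → Bool → ℂ := fun i s => starRingEnd ℂ (g i s) * g' i s with hF
  have h1 : ⟪cyl m g, cyl m g'⟫_ℂ = ∫ p, lev m F p ∂vol := by
    rw [L2.inner_def]
    refine integral_congr_ae ?_
    filter_upwards [(memLp_lev m g).coeFn_toLp, (memLp_lev m g').coeFn_toLp] with p hp hp'
    change ⟪((memLp_lev m g).toLp _ : Pt → ℂ) p, ((memLp_lev m g').toLp _ : Pt → ℂ) p⟫_ℂ = _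
    rw [hp, hp']
    simp [lev, hF, mul_comm]
  have hmapint : ∀ s : Bool, ∫ x, F (pos m x) s ∂base =
      (2 ^ m : ℂ)⁻¹ * ∑ i ∈ range (2 ^ m), F i s := by
    intro s
    rw [← integral_map (measurable_pos m).aemeasurable
      (measurable_of_countable fun i => F i s).aestronglyMeasurable, map_pos,
      integral_finsetSum_measure (fun i _ => ?_), Finset.mul_sum]
    · refine sum_congr rfl fun i _ => ?_
      rw [integral_smul_measure, integral_dirac, ENNReal.toReal_inv, ENNReal.toReal_pow,
        ENNReal.toReal_ofNat, Complex.real_smul]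
      push_cast
      ring
    · exact (integrable_dirac (by simp)).smul_measure (by simp)
  rw [h1, vol, integral_prod _ (show Integrable (lev m F) (base.prod coin) from
    ((memLp_lev m F).integrable one_le_two))]
  have hin : ∀ x, ∫ s, lev m F (x, s) ∂coin = (F (pos m x) true + F (pos m x) false) / 2 := by
    intro x
    rw [integral_fintype (Integrable.of_finite), Fintype.sum_bool]
    simp [lev, measureReal_def, coin_singleton, Complex.real_smul]
    ring
  have hint : ∀ s : Bool, Integrable (fun x => F (pos m x) s) base := by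
    intro s
    refine Integrable.of_bound ((measurable_of_countable fun i => F i s).comp
      (measurable_pos m)).aestronglyMeasurable (∑ i ∈ range (2 ^ m), ‖F i s‖)
      (Filter.Eventually.of_forall fun x => ?_)
    exact single_le_sum (f := fun i => ‖F i s‖) (fun i _ => norm_nonneg _)
      (mem_range.2 (pos_lt m x))
  simp only [hin]
  rw [integral_div, integral_add (hint true) (hint false), hmapint true, hmapint false,
    ← mul_add, ← sum_add_distrib, mul_div_assoc, sum_div]

theorem sum_pow_roots {N : ℕ} {u : ℂ} (h : u ^ N = 1) :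
    ∑ i ∈ range N, u ^ i = if u = 1 then (N : ℂ) else 0 := by
  split_ifs with hu
  · simp [hu]
  · rw [geom_sum_eq hu, h, sub_self, zero_div]

theorem conj_mul_eq_one {z w : ℂ} (hz : ‖z‖ = 1) : starRingEnd ℂ z * w = 1 ↔ z = w := by
  have h : starRingEnd ℂ z * z = 1 := by
    rw [Complex.conj_mul', hz]; simp
  constructor
  · intro hw
    have hz0 : starRingEnd ℂ z ≠ 0 := left_ne_zero_of_mul_eq_one h
    exact mul_left_cancel₀ hz0 (h.trans hw.symm)
  · rintro rfl; exact h

/-- A level at which the root is a root of order a power of two. -/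
def rootLevel (z : dyadicRoots) : ℕ := z.2.choose

theorem rootLevel_spec (z : dyadicRoots) : (z : ℂ) ^ 2 ^ rootLevel z = 1 := z.2.choose_spec

theorem root_pow_of_le (z : dyadicRoots) {m : ℕ} (h : rootLevel z ≤ m) : (z : ℂ) ^ 2 ^ m = 1 := by
  rw [← Nat.add_sub_cancel' h, pow_add, pow_mul, rootLevel_spec, one_pow]

theorem root_norm (z : dyadicRoots) : ‖(z : ℂ)‖ = 1 :=
  Complex.norm_eq_one_of_pow_eq_one (rootLevel_spec z) (by positivity)

/-- The eigenfunction of a root. -/
def chi (z : dyadicRoots) : Lp ℂ 2 vol := cyl (rootLevel z) fun i _ => (z : ℂ) ^ i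

theorem chi_eq (z : dyadicRoots) {m : ℕ} (h : (z : ℂ) ^ 2 ^ m = 1) :
    chi z = cyl m fun i _ => (z : ℂ) ^ i := by
  rw [chi, cyl_lift (le_max_left (rootLevel z) m), cyl_lift (le_max_right (rootLevel z) m)]
  refine cyl_congr fun i _ _ => ?_
  rw [← pow_eq_pow_mod i (rootLevel_spec z), ← pow_eq_pow_mod i h]

theorem orthonormal_chi : Orthonormal ℂ chi := by
  classical
  refine orthonormal_iff_ite.2 fun z w => ?_
  set m := max (rootLevel z) (rootLevel w) with hm
  rw [chi_eq z (root_pow_of_le z (le_max_left _ _)), chi_eq w (root_pow_of_le w (le_max_right _ _)),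
    inner_cyl]
  simp only [map_pow, ← mul_pow, add_self_div_two]
  rw [sum_pow_roots (by
    rw [mul_pow, ← map_pow, root_pow_of_le z (le_max_left _ _),
      root_pow_of_le w (le_max_right _ _), map_one, mul_one])]
  simp only [conj_mul_eq_one (root_norm z), Subtype.coe_inj]
  split_ifs <;> simp

namespace Data

variable (D : Data)

/-- The profile of a tower vector. -/
def prof (k i : ℕ) : ℕ → Bool → ℂ := fun q s =>
  if q = i then (((if s then -1 else 1) * Real.sqrt (D.H k) * D.B i : ℝ) : ℂ) else 0

/-- The tower vectors. -/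
def vec (k i : ℕ) : Lp ℂ 2 vol := cyl (D.a k) (D.prof k i)

theorem orthonormal_vec (k : ℕ) : Orthonormal ℂ fun i : Fin (D.H k) => D.vec k i := by
  classical
  refine orthonormal_iff_ite.2 fun i j => ?_
  rw [vec, vec, inner_cyl]
  rcases eq_or_ne i j with rfl | hne
  · rw [if_pos rfl, sum_eq_single (i : ℕ)]
    · have hH : Real.sqrt (D.H k) * Real.sqrt (D.H k) = (2 ^ D.a k : ℝ) := by
        rw [Real.mul_self_sqrt (Nat.cast_nonneg _), H]; push_cast; rfl
      have hB := D.B_sq i
      simp [prof, Complex.conj_ofReal]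
      have : ((Real.sqrt (D.H k) : ℝ) : ℂ) * D.B i * (((Real.sqrt (D.H k) : ℝ) : ℂ) * D.B i) =
          (2 ^ D.a k : ℂ) := by
        rw [mul_mul_mul_comm, ← Complex.ofReal_mul, ← Complex.ofReal_mul, hH, hB]
        push_cast; ring
      rw [this]
      field_simp
    · intro b _ hb
      simp [prof, hb]
    · intro hni
      exact absurd (mem_range.2 i.2) hni
  · rw [if_neg hne, sum_eq_zero, mul_zero]
    intro b _
    have : (i : ℕ) ≠ (j : ℕ) := fun h => hne (Fin.ext h)
    by_cases hb : b = (i : ℕ)
    · simp [prof, hb, this]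
    · simp [prof, hb]

theorem vec_refine (k m : ℕ) (hkm : k ≤ m) (i : ℕ) (hi : i < D.H k) :
    D.vec k i = ((Real.sqrt ((D.H k : ℝ) / D.H m) : ℝ) : ℂ) •
      ∑ j ∈ range (D.H m / D.H k), (D.B (j * D.H k) : ℂ) • D.vec m (i + j * D.H k) := by
  simp only [vec]
  rw [cyl_lift (D.a_mono hkm)]
  simp only [← map_smul, ← map_sum]
  refine cyl_congr fun q hq s => ?_
  simp only [Pi.smul_apply, Finset.sum_apply, smul_eq_mul]
  change D.prof k i (q % D.H k) s = _
  obtain ⟨r, hr⟩ := D.H_dvd hkm
  have hrdiv : D.H m / D.H k = r := by rw [hr, Nat.mul_div_cancel_left _ (D.H_pos k)]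
  rw [hrdiv]
  change q < D.H m at hq
  by_cases hmod : q % D.H k = i
  · have hq' : i + q / D.H k * D.H k = q := by rw [← hmod, mul_comm]; exact Nat.mod_add_div q _
    have hjr : q / D.H k < r := Nat.div_lt_of_lt_mul (hr ▸ hq)
    have hother : ∀ j ∈ range r, j ≠ q / D.H k →
        (D.B (j * D.H k) : ℂ) * D.prof m (i + j * D.H k) q s = 0 := by
      intro j _ hj
      have : q ≠ i + j * D.H k := fun h => hj (by
        rw [h, Nat.add_mul_div_right _ _ (D.H_pos k), Nat.div_eq_of_lt hi, zero_add])
      simp [prof, this]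
    rw [sum_eq_single (q / D.H k) hother (by simp [hjr]), hq']
    simp only [prof, hmod, if_true, ← Complex.ofReal_mul]
    congr 1
    have hsqrt : Real.sqrt ((D.H k : ℝ) / D.H m) * Real.sqrt (D.H m) = Real.sqrt (D.H k) := by
      rw [← Real.sqrt_mul (by positivity), div_mul_cancel₀]
      exact_mod_cast (D.H_pos m).ne'
    have hBq := D.B_add hi (q / D.H k)
    rw [hq'] at hBq
    rw [← hsqrt, hBq]
    linear_combination (-(if s then (-1 : ℝ) else 1) * Real.sqrt ((D.H k : ℝ) / D.H m) *
      Real.sqrt (D.H m) * D.B i) * D.B_sq (q / D.H k * D.H k)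
  · rw [sum_eq_zero, mul_zero]
    · simp [prof, hmod]
    intro j _
    have : q ≠ i + j * D.H k := fun h => hmod (by
      rw [h, Nat.add_mul_mod_self_right, Nat.mod_eq_of_lt hi])
    simp [prof, this]

theorem comp_cyl (m : ℕ) (g g' : ℕ → Bool → ℂ)
    (h : ∀ x s, g (pos m (up x)) (xor s (D.flip x)) = g' (pos m x) s) :
    Lp.compMeasurePreserving D.shift D.shift_preserving (cyl m g) = cyl m g' := by
  change Lp.compMeasurePreserving _ _ ((memLp_lev m g).toLp _) = _
  rw [Lp.toLp_compMeasurePreserving]
  exact (MemLp.toLp_eq_toLp_iff _ (memLp_lev m g')).2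
    (Filter.Eventually.of_forall fun p => h p.1 p.2)

theorem vec_shift (k i : ℕ) (hi : i + 1 < D.H k) :
    Lp.compMeasurePreserving D.shift D.shift_preserving (D.vec k (i + 1)) = D.vec k i := by
  refine D.comp_cyl _ _ _ fun x s => ?_
  have hp := pos_lt (D.a k) x
  rw [pos_up]
  simp only [prof, H] at hi ⊢
  by_cases h : pos (D.a k) x = i
  · rw [if_pos h, h, Nat.mod_eq_of_lt hi, if_pos rfl]
    have hflip := D.flip_eq (k := k) (x := x) (show pos (D.a k) x + 1 < 2 ^ D.a k by omega)
    rw [h] at hflip
    have hs : (if xor s (D.flip x) then (-1 : ℝ) else 1) =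
        (if s then -1 else 1) * (if D.flip x then -1 else 1) := by
      cases s <;> cases D.flip x <;> norm_num
    congr 1
    rw [hs, hflip]
    linear_combination ((if s then (-1 : ℝ) else 1) * D.B i * Real.sqrt (2 ^ D.a k : ℕ)) *
      D.B_sq (i + 1)
  · rw [if_neg h, if_neg]
    intro hc
    rcases Nat.lt_or_ge (pos (D.a k) x + 1) (2 ^ D.a k) with h1 | h1
    · rw [Nat.mod_eq_of_lt h1] at hc; omega
    · rw [show pos (D.a k) x + 1 = 2 ^ D.a k by omega, Nat.mod_self] at hc; omega

theorem chi_shift (z : dyadicRoots) :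
    Lp.compMeasurePreserving D.shift D.shift_preserving (chi z) = (z : ℂ) • chi z := by
  rw [chi, ← map_smul]
  refine D.comp_cyl _ _ _ fun x _ => ?_
  simp only [Pi.smul_apply, smul_eq_mul]
  rw [pos_up, ← pow_eq_pow_mod _ (rootLevel_spec z), pow_succ']

theorem vec_chi (k i : ℕ) (z : dyadicRoots) : ⟪D.vec k i, chi z⟫_ℂ = 0 := by
  set m := max (D.a k) (rootLevel z)
  rw [vec, cyl_lift (le_max_left (D.a k) (rootLevel z)),
    chi_eq z (root_pow_of_le z (le_max_right (D.a k) (rootLevel z))), inner_cyl, sum_eq_zero,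
    mul_zero]
  intro q _
  simp only [prof, if_true, Bool.false_eq_true, if_false]
  split_ifs <;> simp

theorem mem_span_level (k : ℕ) (g : ℕ → Bool → ℂ) :
    cyl (D.a k) g ∈
      Submodule.span ℂ (Set.range chi ∪ {f | ∃ k, ∃ i < D.H k, f = D.vec k i}) := by
  classical
  set S := Submodule.span ℂ (Set.range chi ∪ {f | ∃ k, ∃ i < D.H k, f = D.vec k i})
  set m := D.a k
  have hdelta : ∀ q₀ < 2 ^ m, cyl m (fun i _ => if i = q₀ then 1 else 0) ∈ S := by
    intro q₀ hq₀
    obtain ⟨ω, hω⟩ : ∃ ω : ℂ, IsPrimitiveRoot ω (2 ^ m) :=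
      ⟨_, Complex.isPrimitiveRoot_exp (2 ^ m) (by positivity)⟩
    have hroot : ∀ l : ℕ, (ω ^ l) ^ 2 ^ m = 1 := fun l => by
      rw [← pow_mul, mul_comm, pow_mul, hω.pow_eq_one, one_pow]
    have hmem : ∀ l : ℕ, cyl m (fun i _ => (ω ^ l) ^ i) ∈ S := fun l => by
      rw [← chi_eq ⟨ω ^ l, m, hroot l⟩ (hroot l)]
      exact Submodule.subset_span (Or.inl ⟨_, rfl⟩)
    have hn : ‖ω ^ q₀‖ = 1 := Complex.norm_eq_one_of_pow_eq_one (hroot q₀) (by positivity)
    have heq : cyl m (fun i _ => if i = q₀ then 1 else 0) =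
        ∑ l ∈ range (2 ^ m), ((2 ^ m : ℂ)⁻¹ * starRingEnd ℂ (ω ^ q₀) ^ l) •
          cyl m (fun i _ => (ω ^ l) ^ i) := by
      simp only [← map_smul, ← map_sum]
      refine cyl_congr fun q hq s => ?_
      simp only [Finset.sum_apply, Pi.smul_apply, smul_eq_mul]
      have hterm : ∀ l, (2 ^ m : ℂ)⁻¹ * starRingEnd ℂ (ω ^ q₀) ^ l * (ω ^ l) ^ q =
          (2 ^ m : ℂ)⁻¹ * (starRingEnd ℂ (ω ^ q₀) * ω ^ q) ^ l := fun l => by
        rw [mul_pow, ← pow_mul, ← pow_mul, mul_comm l q, mul_assoc]
      simp only [hterm]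
      rw [← Finset.mul_sum, sum_pow_roots (by rw [mul_pow, ← map_pow, hroot, hroot, map_one, mul_one])]
      rcases eq_or_ne q q₀ with rfl | hne
      · rw [if_pos rfl, if_pos ((conj_mul_eq_one hn).2 rfl)]
        push_cast; field_simp
      · rw [if_neg hne, if_neg, mul_zero]
        intro h1
        exact hne (hω.pow_inj hq hq₀ ((conj_mul_eq_one hn).1 h1).symm)
    rw [heq]
    exact Submodule.sum_mem _ fun l _ => Submodule.smul_mem _ _ (hmem l)
  have hg : cyl m g = ∑ q ∈ range (2 ^ m),
      (((g q false + g q true) / 2) • cyl m (fun i _ => if i = q then 1 else 0) +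
        ((g q false - g q true) / 2 * ((Real.sqrt (D.H k) * D.B q : ℝ) : ℂ)⁻¹) • D.vec k q) := by
    simp only [vec, show D.a k = m from rfl, ← map_smul, ← map_add, ← map_sum]
    refine cyl_congr fun i hi s => ?_
    simp only [Finset.sum_apply, Pi.add_apply, Pi.smul_apply, smul_eq_mul]
    rw [sum_eq_single i]
    · have hne : ((Real.sqrt (D.H k) * D.B i : ℝ) : ℂ) ≠ 0 := by
        refine Complex.ofReal_ne_zero.2 (mul_ne_zero ?_ ?_)
        · exact (Real.sqrt_pos.2 (by exact_mod_cast D.H_pos k)).ne'
        · rcases D.B_sign i with h | h <;> simp [h]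
      rcases s with _ | _
      · simp only [prof, if_true, Bool.false_eq_true, if_false, one_mul]
        rw [mul_assoc, inv_mul_cancel₀ hne]
        ring
      · simp only [prof, if_true, neg_mul, one_mul]
        rw [Complex.ofReal_neg, mul_neg, mul_assoc, inv_mul_cancel₀ hne]
        ring
    · intro b _ hb
      simp [prof, Ne.symm hb]
    · simp [hi]
  rw [hg]
  refine Submodule.sum_mem _ fun q hq => Submodule.add_mem _
    (Submodule.smul_mem _ _ (hdelta q (mem_range.1 hq))) (Submodule.smul_mem _ _ ?_)
  exact Submodule.subset_span (Or.inr ⟨k, q, mem_range.1 hq, rfl⟩)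

theorem mem_span (m : ℕ) (g : ℕ → Bool → ℂ) :
    cyl m g ∈ Submodule.span ℂ (Set.range chi ∪ {f | ∃ k, ∃ i < D.H k, f = D.vec k i}) := by
  rw [cyl_lift (D.le_a m)]
  exact D.mem_span_level _ _

end Data

/-- The sets determined by finitely many coordinates. -/
def cylinders : Set (Set Pt) :=
  {s | ∃ (m : ℕ) (A : Set (ℕ × Bool)), s = (fun p : Pt => (pos m p.1, p.2)) ⁻¹' A}

theorem measurableSet_cylinder {s : Set Pt} (h : s ∈ cylinders) : MeasurableSet s := by
  obtain ⟨m, A, rfl⟩ := h
  exact ((measurable_pos m).comp measurable_fst |>.prodMk measurable_snd) A.to_countable.measurableSet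

theorem isPiSystem_cylinders : IsPiSystem cylinders := by
  rintro _ ⟨m, A, rfl⟩ _ ⟨m', A', rfl⟩ -
  refine ⟨max m m', (fun q => (q.1 % 2 ^ m, q.2)) ⁻¹' A ∩ (fun q => (q.1 % 2 ^ m', q.2)) ⁻¹' A', ?_⟩
  ext p
  simp [pos_mod (le_max_left m m'), pos_mod (le_max_right m m')]

theorem generateFrom_cylinders :
    (inferInstance : MeasurableSpace Pt) = MeasurableSpace.generateFrom cylinders := by
  refine le_antisymm ?_ (MeasurableSpace.generateFrom_le fun s hs => measurableSet_cylinder hs)
  let G : MeasurableSpace Pt := MeasurableSpace.generateFrom cylinders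
  have h1 : Measurable[G] fun p : Pt => p.2 :=
    measurable_to_bool (MeasurableSpace.measurableSet_generateFrom
      ⟨0, {q | q.2 = true}, by ext p; simp⟩)
  have h2 : Measurable[G] fun p : Pt => p.1 := by
    refine measurable_pi_lambda _ fun n => measurable_to_bool
      (MeasurableSpace.measurableSet_generateFrom ⟨n + 1, {q | q.1.testBit n = true}, ?_⟩)
    ext p
    simp [pos_testBit p.1 (Nat.lt_succ_self n)]
  intro s hs
  exact (h2.prodMk h1) hs

theorem eq_zero_of_cylinders (f : Lp ℂ 2 vol)
    (h : ∀ m g, ⟪cyl m g, f⟫_ℂ = 0) : f = 0 := by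
  classical
  have hint : Integrable f vol := (Lp.memLp f).integrable one_le_two
  have hset : ∀ s, MeasurableSet s → ∫ p in s, f p ∂vol = 0 := by
    refine MeasurableSpace.induction_on_inter generateFrom_cylinders isPiSystem_cylinders
      (by simp) ?_ ?_ ?_
    · intro s hs
      have hsm := measurableSet_cylinder hs
      obtain ⟨m, A, rfl⟩ := hs
      rw [← L2.inner_indicatorConstLp_one (𝕜 := ℂ) hsm (measure_ne_top _ _) f]
      refine Eq.trans ?_ (h m fun i s => if (i, s) ∈ A then 1 else 0)
      congr 1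
    · intro s hs h0
      have huniv : ∫ p, f p ∂vol = 0 := by
        rw [← setIntegral_univ, ← L2.inner_indicatorConstLp_one (𝕜 := ℂ) MeasurableSet.univ
          (measure_ne_top _ _) f]
        refine Eq.trans ?_ (h 0 fun _ _ => 1)
        congr 1
        rw [indicatorConstLp]
        exact (MemLp.toLp_eq_toLp_iff _ (memLp_lev _ _)).2
          (Filter.Eventually.of_forall fun p => by simp [lev])
      have := integral_add_compl hs hint
      rw [h0, zero_add] at this
      rw [this, huniv]
    · intro g hd hg h0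
      rw [integral_iUnion hg hd hint.integrableOn]
      simp [h0]
  refine Lp.eq_zero_iff_ae_eq_zero.2 ?_
  exact hint.ae_eq_zero_of_forall_setIntegral_eq_zero fun s hs _ => hset s hs

instance : NullSingletonClass vol := by
  refine ⟨fun p => le_antisymm ?_ bot_le⟩
  have hle : ∀ m : ℕ, vol {p} ≤ (2⁻¹ : ℝ≥0∞) ^ m := by
    intro m
    calc vol {p} ≤ vol ((pos m ⁻¹' {pos m p.1}) ×ˢ Set.univ) := by
          refine measure_mono ?_
          rintro q rfl
          simp
      _ = base (pos m ⁻¹' {pos m p.1}) := by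
          rw [vol, Measure.prod_prod, measure_univ, mul_one]
      _ = (2⁻¹ : ℝ≥0∞) ^ m := by rw [base_pos m _ (pos_lt m _), ENNReal.inv_pow]
  exact ge_of_tendsto' (ENNReal.tendsto_pow_atTop_nhds_zero_of_lt_one (by simp)) hle

theorem spaceStmt (D : Data) : SpaceStmt D := by
  refine ⟨Pt, inferInstance, inferInstance, vol, inferInstance, inferInstance, D.shift,
    D.shift_preserving, D.vec, chi, D.orthonormal_vec, D.vec_refine, D.vec_shift, orthonormal_chi,
    D.chi_shift, fun k i _ z => D.vec_chi k i z, ?_⟩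
  refine (Submodule.eq_bot_iff _).2 fun f hf => eq_zero_of_cylinders f fun m g => ?_
  exact Submodule.inner_right_of_mem_orthogonal (D.mem_span m g) hf

end

end Vale.Agent.P130.Morse
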