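import Vale.Agent.P130.Morse.Circle

/-!
P130: the shifted roots of the Riesz product are orthonormal and complete.
-/

namespace Vale.Agent.P130.Morse

open Finset MeasureTheory AddCircle Filter
open scoped InnerProductSpace ComplexConjugate Topology

noncomputable section

/-- The square integrable functions on the circle. -/
abbrev L2T : Type := Lp ℂ 2 (haarAddCircle : Measure UnitAddCircle)

/-- A continuous function as a square integrable one. -/
abbrev toT : C(UnitAddCircle, ℂ) →L[ℂ] L2T := ContinuousMap.toLp 2 haarAddCircle ℂ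

theorem inner_toT_fourier (a b : ℤ) :
    ⟪toT (fourier a), toT (fourier b)⟫_ℂ = if a = b then 1 else 0 :=
  (orthonormal_iff_ite.1 (orthonormal_fourier (T := (1 : ℝ)))) a b

/-- A functional vanishing on the monomials vanishes on continuous functions. -/
theorem eq_zero_of_fourier {F : Type*} [NormedAddCommGroup F] [NormedSpace ℂ F]
    (L : C(UnitAddCircle, ℂ) →L[ℂ] F) (h : ∀ n, L (fourier n) = 0) : L = 0 :=
  L.ext_on (Submodule.dense_iff_topologicalClosure_eq_top.2 span_fourier_closure_eq_top)
    (by rintro _ ⟨n, rfl⟩; simpa using h n)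

namespace Data

variable (D : Data)

/-- The vector `i` of the level `k` on the circle. -/
def w (k i : ℕ) : L2T := toT (fourier (i : ℤ) * D.G k)

theorem R_shift (k m i : ℕ) : fourier (i : ℤ) * D.R k m =
    ((Real.sqrt ((D.H k : ℝ) / D.H m) : ℝ) : ℂ) •
      ∑ j ∈ range (D.H m / D.H k), (D.B (j * D.H k) : ℂ) • fourier ((i + j * D.H k : ℕ) : ℤ) := by
  ext x
  simp only [R, ContinuousMap.mul_apply, ContinuousMap.smul_apply, ContinuousMap.sum_apply,
    smul_eq_mul, mul_sum, Nat.cast_add, fourier_mul_apply]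
  exact sum_congr rfl fun j _ => by ring

theorem w_refine {k m : ℕ} (h : k ≤ m) (i : ℕ) :
    D.w k i = ((Real.sqrt ((D.H k : ℝ) / D.H m) : ℝ) : ℂ) •
      ∑ j ∈ range (D.H m / D.H k), (D.B (j * D.H k) : ℂ) • D.w m (i + j * D.H k) := by
  have : fourier (i : ℤ) * D.G k = (fourier (i : ℤ) * D.R k m) * D.G m := by
    ext x; simp [D.refine_G h x, mul_assoc]
  rw [w, this, D.R_shift k m i, smul_mul_assoc, sum_mul, map_smul, map_sum]
  simp only [smul_mul_assoc, map_smul, w]

theorem inner_R {k m : ℕ} (h : k ≤ m) {i i' : ℕ} (hi : i < D.H k) (hi' : i' < D.H k) :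
    ⟪toT (fourier (i : ℤ) * D.R k m), toT (fourier (i' : ℤ) * D.R k m)⟫_ℂ =
      if i = i' then 1 else 0 := by
  simp only [D.R_shift, map_smul, map_sum, inner_smul_left, inner_smul_right, sum_inner, inner_sum,
    inner_toT_fourier, Complex.conj_ofReal, Nat.cast_inj, mul_ite, mul_one, mul_zero]
  obtain ⟨r, hr⟩ := D.H_dvd h
  have hk := D.H_pos k
  have hrd : D.H m / D.H k = r := by rw [hr, Nat.mul_div_cancel_left _ hk]
  have key : ∀ j j' : ℕ, i + j * D.H k = i' + j' * D.H k ↔ i = i' ∧ j = j' := by
    refine fun j j' => ⟨fun e => ?_, fun e => by rw [e.1, e.2]⟩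
    have h1 := congrArg (· % D.H k) e
    simp only [Nat.add_mul_mod_self_right, Nat.mod_eq_of_lt hi, Nat.mod_eq_of_lt hi'] at h1
    subst h1
    exact ⟨rfl, Nat.eq_of_mul_eq_mul_right hk (Nat.add_left_cancel e)⟩
  simp only [hrd, key]
  rcases eq_or_ne i i' with rfl | hne
  · simp only [true_and, if_true, Finset.sum_ite_eq, Finset.sum_ite_eq', mem_range]
    have hB : ∀ j, (D.B (j * D.H k) : ℂ) * (D.B (j * D.H k) : ℂ) = 1 := fun j => by
      rw [← Complex.ofReal_mul, D.B_sq, Complex.ofReal_one]
    rw [sum_congr rfl fun j hj => show _ = ((Real.sqrt ((D.H k : ℝ) / D.H m) : ℝ) : ℂ) by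
      simp only [if_pos (mem_range.1 hj)]
      linear_combination ((Real.sqrt ((D.H k : ℝ) / D.H m) : ℝ) : ℂ) * hB j]
    rw [sum_const, card_range, nsmul_eq_mul, ← Complex.ofReal_natCast, ← Complex.ofReal_mul,
      ← Complex.ofReal_mul, mul_left_comm, Real.mul_self_sqrt (by positivity), hr, Complex.ofReal_eq_one]
    have hr0 : (r : ℝ) ≠ 0 := by
      have hp := D.H_pos m; rw [hr] at hp
      exact_mod_cast (Nat.pos_of_mul_pos_left hp).ne'
    have hk0 : (D.H k : ℝ) ≠ 0 := Nat.cast_ne_zero.2 hk.ne'
    push_cast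
    field_simp
  · simp [hne]

theorem w_orthonormal (k : ℕ) : Orthonormal ℂ fun i : Fin (D.H k) => D.w k i := by
  rw [orthonormal_iff_ite]
  intro i j
  suffices h : ∀ m, k ≤ m → ‖⟪D.w k i, D.w k j⟫_ℂ - (if i = j then 1 else 0)‖ ≤ 8 * (1 / 2) ^ m by
    have ht : Tendsto (fun m : ℕ => 8 * ((1 : ℝ) / 2) ^ m) atTop (𝓝 0) := by
      simpa using (tendsto_pow_atTop_nhds_zero_of_lt_one (by norm_num : (0 : ℝ) ≤ 1 / 2)
        (by norm_num)).const_mul 8
    exact sub_eq_zero.1 (norm_le_zero_iff.1 (ge_of_tendsto ht (eventually_atTop.2 ⟨k, h⟩)))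
  intro m hm
  have hR := D.inner_R hm i.2 j.2
  simp only [Fin.val_inj] at hR
  rw [← hR]
  set a : C(UnitAddCircle, ℂ) := fourier ((i : ℕ) : ℤ) * D.R k m with ha
  set b : C(UnitAddCircle, ℂ) := fourier ((j : ℕ) : ℤ) * D.R k m with hb
  have hw : ∀ l : ℕ, fourier (l : ℤ) * D.G k = fourier (l : ℤ) * D.R k m * D.G m := fun l => by
    ext x; simp [D.refine_G hm x, mul_assoc]
  rw [w, w, hw, hw, ← ha, ← hb, ContinuousMap.inner_toLp, ContinuousMap.inner_toLp,
    ← integral_sub (Continuous.integrable_of_hasCompactSupport (by fun_prop) (HasCompactSupport.of_compactSpace _))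
      (Continuous.integrable_of_hasCompactSupport (by fun_prop) (HasCompactSupport.of_compactSpace _))]
  have hone : ∫ x, ‖D.R k m x‖ ^ 2 ∂haarAddCircle = (1 : ℝ) := by
    have h1 := D.inner_R hm i.2 i.2
    rw [if_pos rfl, ContinuousMap.inner_toLp] at h1
    rw [← Complex.ofReal_inj, ← integral_complex_ofReal, Complex.ofReal_one, ← h1]
    refine integral_congr_ae (ae_of_all _ fun x => ?_)
    simp only [ContinuousMap.mul_apply, map_mul]
    rw [mul_mul_mul_comm, Complex.mul_conj' (fourier _ x), norm_fourier_apply, Complex.ofReal_one,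
      one_pow, one_mul, Complex.mul_conj', Complex.ofReal_pow]
  refine (norm_integral_le_integral_norm _).trans ?_
  calc ∫ x, ‖(b * D.G m) x * conj ((a * D.G m) x) - b x * conj (a x)‖ ∂haarAddCircle
      ≤ ∫ x, ‖D.R k m x‖ ^ 2 * (8 * (1 / 2) ^ m) ∂haarAddCircle := by
        refine integral_mono_of_nonneg (ae_of_all _ fun x => norm_nonneg _)
          (((map_continuous (D.R k m)).norm.pow 2).mul continuous_const |>.integrable_of_hasCompactSupport
            (HasCompactSupport.of_compactSpace _)) (ae_of_all _ fun x => ?_)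
        have : (b * D.G m) x * conj ((a * D.G m) x) - b x * conj (a x) =
            (b x * conj (a x)) * ((‖D.G m x‖ ^ 2 - 1 : ℝ) : ℂ) := by
          simp only [ContinuousMap.mul_apply, map_mul]
          push_cast
          rw [← Complex.mul_conj']
          ring
        beta_reduce
        rw [this, norm_mul, norm_mul, Complex.norm_conj, Complex.norm_real, Real.norm_eq_abs, ha, hb]
        simp only [ContinuousMap.mul_apply, norm_mul, norm_fourier_apply, one_mul, ← pow_two]
        exact mul_le_mul_of_nonneg_left (D.norm_sq_G m x) (sq_nonneg _)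
    _ = 8 * (1 / 2) ^ m := by rw [integral_mul_const, hone, one_mul]

theorem norm_w (k i : ℕ) (hi : i < D.H k) : ‖D.w k i‖ = 1 := (D.w_orthonormal k).1 ⟨i, hi⟩

/-- A bounded map of continuous functions which kills all but the last shift of every level is zero. -/
theorem vanish {F : Type*} [NormedAddCommGroup F] [NormedSpace ℂ F]
    (L : C(UnitAddCircle, ℂ) →L[ℂ] F)
    (h : ∀ k i, i + 1 < D.H k → L (fourier (i : ℤ) * D.G k) = 0) : L = 0 := by
  have hbound : ∀ (n : ℤ) (k : ℕ), ‖fourier n * D.G k‖ ≤ 3 := by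
    intro n k
    refine (ContinuousMap.norm_le _ (by norm_num)).2 fun x => ?_
    rw [ContinuousMap.mul_apply, norm_mul, norm_fourier_apply, one_mul]
    have h1 := (abs_le.1 (D.norm_sq_G k x)).2
    have h2 : ((1 : ℝ) / 2) ^ k ≤ 1 := pow_le_one₀ (by norm_num) (by norm_num)
    nlinarith [norm_nonneg (D.G k x)]
  set L' : C(UnitAddCircle, ℂ) →L[ℂ] F :=
    L.comp ((ContinuousLinearMap.mul ℂ C(UnitAddCircle, ℂ)).flip (D.G 0)) with hL'
  have happ : ∀ g, L' g = L (g * D.G 0) := fun g => by simp [hL', mul_comm]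
  have hL : L' = 0 := by
    refine eq_zero_of_fourier L' fun n => ?_
    rw [happ]
    set C : ℝ := ((n.natAbs : ℝ) + 1) * (‖L‖ * 3)
    have hle : ∀ m, ‖L (fourier n * D.G 0)‖ ≤ C * Real.sqrt (1 / D.H m) := by
      intro m
      have hH := D.H_pos m
      have e : fourier n * D.G 0 = ((Real.sqrt (1 / D.H m) : ℝ) : ℂ) •
          ∑ j ∈ range (D.H m), (D.B j : ℂ) • (fourier (n + (j : ℤ)) * D.G m) := by
        ext x
        simp only [ContinuousMap.mul_apply, D.refine_G (Nat.zero_le m) x, R, H_zero, Nat.cast_one,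
          Nat.div_one, mul_one, ContinuousMap.smul_apply, ContinuousMap.sum_apply, smul_eq_mul,
          fourier_mul_apply, mul_sum, sum_mul]
        exact sum_congr rfl fun j _ => by ring
      rw [e, map_smul, map_sum, norm_smul, Complex.norm_real, Real.norm_eq_abs,
        abs_of_nonneg (Real.sqrt_nonneg _), mul_comm]
      refine mul_le_mul_of_nonneg_right ((norm_sum_le _ _).trans ?_) (Real.sqrt_nonneg _)
      have hterm : ∀ j ∈ range (D.H m), ‖L ((D.B j : ℂ) • (fourier (n + (j : ℤ)) * D.G m))‖ ≤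
          if 0 ≤ n + j ∧ n + j + 1 < (D.H m : ℤ) then 0 else ‖L‖ * 3 := by
        intro j _
        rw [map_smul, norm_smul, Complex.norm_real, Real.norm_eq_abs,
          show |D.B j| = 1 by rcases D.B_sign j with e | e <;> simp [e], one_mul]
        split_ifs with hc
        · obtain ⟨l, hl⟩ := Int.eq_ofNat_of_zero_le hc.1
          rw [hl] at hc ⊢
          rw [h m l (by exact_mod_cast hc.2), norm_zero]
        · exact (L.le_opNorm _).trans (mul_le_mul_of_nonneg_left (hbound _ _) (norm_nonneg _))
      refine (sum_le_sum hterm).trans ?_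
      rw [sum_ite, sum_const_zero, zero_add, sum_const, nsmul_eq_mul]
      refine mul_le_mul_of_nonneg_right ?_ (by positivity)
      have hcard : ((range (D.H m)).filter fun j : ℕ => ¬ (0 ≤ n + j ∧ n + j + 1 < (D.H m : ℤ))).card ≤
          n.natAbs + 1 := by
        rcases le_total 0 n with hn | hn
        · refine le_trans (card_le_card (t := Finset.Ico (D.H m - (n.natAbs + 1)) (D.H m)) fun j hj => ?_) ?_
          · rw [mem_filter, mem_range] at hj
            rw [Finset.mem_Ico]
            omega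
          · rw [Nat.card_Ico]; omega
        · refine le_trans (card_le_card (t := range n.natAbs ∪ {D.H m + n.natAbs - 1}) fun j hj => ?_) ?_
          · rw [mem_filter, mem_range] at hj
            rw [mem_union, mem_range, mem_singleton]
            omega
          · refine (card_union_le _ _).trans ?_
            rw [card_range, card_singleton]
      exact_mod_cast hcard
    have ht : Tendsto (fun m => C * Real.sqrt (1 / D.H m)) atTop (𝓝 0) := by
      have h1 : Tendsto (fun m => (D.H m : ℝ)) atTop atTop :=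
        tendsto_natCast_atTop_atTop.comp (tendsto_atTop_mono (fun m => (D.lt_H m).le) tendsto_id)
      simpa using (Real.continuous_sqrt.tendsto' 0 0 Real.sqrt_zero).comp
        ((tendsto_const_nhds (x := (1 : ℝ))).div_atTop h1) |>.const_mul C
    exact norm_le_zero_iff.1 (ge_of_tendsto' ht hle)
  refine ContinuousLinearMap.ext fun g => ?_
  have h0 : ∀ x, D.G 0 x ≠ 0 := fun x => norm_pos_iff.1 (by rw [D.norm_G]; exact Real.exp_pos _)
  have := congrArg (fun Φ : C(UnitAddCircle, ℂ) →L[ℂ] F => Φ ⟨fun x => g x / D.G 0 x,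
    (map_continuous g).div (map_continuous _) h0⟩) hL
  simp only [happ, zero_apply] at this
  rw [zero_apply, ← this]
  congr 1
  ext x
  simp [h0 x]

theorem w_total (v : L2T) (h : ∀ k, ∀ i < D.H k, ⟪D.w k i, v⟫_ℂ = 0) : v = 0 := by
  have hL := D.vanish ((innerSL ℂ v).comp toT) fun k i hi => by
    have := h k i (Nat.lt_of_succ_lt hi)
    rw [w] at this
    rw [ContinuousLinearMap.comp_apply, innerSL_apply_apply, inner_eq_zero_symm]
    exact this
  refine (Submodule.dense_iff_topologicalClosure_eq_top.2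
    (fourierBasis (T := (1 : ℝ))).dense_span).eq_zero_of_inner_left ℂ ?_
  intro y hy
  induction hy using Submodule.span_induction with
  | mem y hy =>
    obtain ⟨n, rfl⟩ := hy
    rw [coe_fourierBasis]
    exact congrArg (fun Φ : C(UnitAddCircle, ℂ) →L[ℂ] ℂ => Φ (fourier n)) hL
  | zero => simp
  | add y z _ _ e1 e2 => rw [inner_add_right, e1, e2, add_zero]
  | smul a y _ e => rw [inner_smul_right, e, mul_zero]

end Data

end

end Vale.Agent.P130.Morse
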