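import Vale.Agent.P130.Morse.Spectral
import Vale.Agent.P130.Morse.Interface

/-!
P130: the odd part of the Morse extension is the bilateral shift.
-/

namespace Vale.Agent.P130.Morse

open Finset MeasureTheory AddCircle
open scoped InnerProductSpace ComplexConjugate

noncomputable section

/-- The positions of all levels. -/
abbrev Pos (D : Data) : Type := Σ k, Fin (D.H k)

theorem gram_eq (D : Data) {E F : Type*} [NormedAddCommGroup E] [InnerProductSpace ℂ E]
    [NormedAddCommGroup F] [InnerProductSpace ℂ F] (v : ℕ → ℕ → E) (w : ℕ → ℕ → F)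
    (hv : ∀ k, Orthonormal ℂ fun i : Fin (D.H k) => v k i)
    (hw : ∀ k, Orthonormal ℂ fun i : Fin (D.H k) => w k i)
    (rv : ∀ k m, k ≤ m → ∀ i < D.H k, v k i = ((Real.sqrt ((D.H k : ℝ) / D.H m) : ℝ) : ℂ) •
      ∑ j ∈ range (D.H m / D.H k), (D.B (j * D.H k) : ℂ) • v m (i + j * D.H k))
    (rw' : ∀ k m, k ≤ m → ∀ i < D.H k, w k i = ((Real.sqrt ((D.H k : ℝ) / D.H m) : ℝ) : ℂ) •
      ∑ j ∈ range (D.H m / D.H k), (D.B (j * D.H k) : ℂ) • w m (i + j * D.H k))
    (p q : Pos D) : ⟪v p.1 p.2, v q.1 q.2⟫_ℂ = ⟪w p.1 p.2, w q.1 q.2⟫_ℂ := by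
  obtain ⟨k, i⟩ := p
  obtain ⟨l, j⟩ := q
  set m := max k l
  have hlt : ∀ k', k' ≤ m → ∀ i' < D.H k', ∀ r ∈ range (D.H m / D.H k'), i' + r * D.H k' < D.H m := by
    intro k' hk' i' hi' r hr
    have h1 : r + 1 ≤ D.H m / D.H k' := mem_range.1 hr
    have h2 := Nat.mul_le_mul_right (D.H k') h1
    rw [Nat.div_mul_cancel (D.H_dvd hk'), Nat.add_mul, one_mul] at h2
    omega
  dsimp only
  rw [rv k m (le_max_left _ _) i i.2, rv l m (le_max_right _ _) j j.2,
    rw' k m (le_max_left _ _) i i.2, rw' l m (le_max_right _ _) j j.2]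
  simp only [inner_smul_left, inner_smul_right, sum_inner, inner_sum]
  refine congrArg _ (sum_congr rfl fun a ha => congrArg _ (congrArg _ (sum_congr rfl fun b hb => congrArg _ ?_)))
  have h1 := hlt k (le_max_left _ _) i i.2
  have h2 := hlt l (le_max_right _ _) j j.2
  have e1 := orthonormal_iff_ite.1 (hv m)
  have e2 := orthonormal_iff_ite.1 (hw m)
  first
    | exact (e1 ⟨_, h1 b hb⟩ ⟨_, h2 a ha⟩).trans (e2 ⟨_, h1 b hb⟩ ⟨_, h2 a ha⟩).symm
    | exact (e1 ⟨_, h1 a ha⟩ ⟨_, h2 b hb⟩).trans (e2 ⟨_, h1 a ha⟩ ⟨_, h2 b hb⟩).symm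

theorem norm_linearCombination_eq {ι E F : Type*} [NormedAddCommGroup E] [InnerProductSpace ℂ E]
    [NormedAddCommGroup F] [InnerProductSpace ℂ F] (v : ι → E) (w : ι → F)
    (h : ∀ p q, ⟪v p, v q⟫_ℂ = ⟪w p, w q⟫_ℂ) (c : ι →₀ ℂ) :
    ‖Finsupp.linearCombination ℂ v c‖ = ‖Finsupp.linearCombination ℂ w c‖ := by
  rw [norm_eq_sqrt_re_inner (𝕜 := ℂ), norm_eq_sqrt_re_inner (𝕜 := ℂ)]
  simp only [Finsupp.linearCombination_apply, Finsupp.sum, sum_inner, inner_sum, inner_smul_left,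
    inner_smul_right, h]

theorem dense_span_w (D : Data) :
    DenseRange (Finsupp.linearCombination ℂ fun p : Pos D => D.w p.1 p.2) := by
  have hd : Dense (Submodule.span ℂ (Set.range fun p : Pos D => D.w p.1 p.2) : Set L2T) := by
    rw [Submodule.dense_iff_topologicalClosure_eq_top, Submodule.topologicalClosure_eq_top_iff,
      Submodule.eq_bot_iff]
    intro x hx
    refine D.w_total x fun k i hi => ?_
    exact (Submodule.mem_orthogonal _ _).1 hx _ (Submodule.subset_span ⟨⟨k, i, hi⟩, rfl⟩)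
  rwa [← Finsupp.range_linearCombination, LinearMap.coe_range] at hd

/-- **Simple spectrum: a bilateral shift and the dyadic roots of unity.** -/
theorem spectrum_of {D : Data} (h : SpaceStmt D) :
    ∃ (X : Type) (_ : MeasurableSpace X) (_ : StandardBorelSpace X) (μ : Measure X)
      (_ : IsProbabilityMeasure μ) (_ : NullSingletonClass μ) (T : X ≃ᵐ X) (hT : MeasurePreserving T μ μ)
      (b : HilbertBasis (ℤ ⊕ {z : ℂ | ∃ m : ℕ, z ^ 2 ^ m = 1}) ℂ (Lp ℂ 2 μ)),
      (∀ n : ℤ, Lp.compMeasurePreserving T hT (b (Sum.inl n)) = b (Sum.inl (n + 1))) ∧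
        ∀ z : {z : ℂ | ∃ m : ℕ, z ^ 2 ^ m = 1},
          Lp.compMeasurePreserving T hT (b (Sum.inr z)) = (z : ℂ) • b (Sum.inr z) := by
  obtain ⟨X, mX, sX, μ, hμ, hna, T, hT, v, χ, hv, rv, hU, hχ, hχU, hvχ, htot⟩ := h
  set e := Finsupp.linearCombination ℂ fun p : Pos D => D.w p.1 p.2
  set f := Finsupp.linearCombination ℂ fun p : Pos D => v p.1 p.2
  have hnorm : ∀ c, ‖f c‖ = ‖e c‖ := norm_linearCombination_eq _ _
    (gram_eq D v D.w hv D.w_orthonormal rv fun k m hkm i _ => D.w_refine hkm i)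
  have hbd : ∃ C : ℝ, ∀ c, ‖f c‖ ≤ C * ‖e c‖ := ⟨1, fun c => by rw [one_mul, hnorm]⟩
  have hd := dense_span_w D
  set J : L2T →L[ℂ] Lp ℂ 2 μ := f.extendOfNorm e
  have hJe : ∀ c, J (e c) = f c := LinearMap.extendOfNorm_eq hd hbd
  have hJw : ∀ k, ∀ i < D.H k, J (D.w k i) = v k i := fun k i hi => by
    simpa [e, f] using hJe (Finsupp.single ⟨k, i, hi⟩ 1)
  have hJn : ∀ x, ‖J x‖ = ‖x‖ := fun x =>
    hd.induction_on x (isClosed_eq (by fun_prop) (by fun_prop)) fun c => by rw [hJe, hnorm]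
  set Ji : L2T →ₗᵢ[ℂ] Lp ℂ 2 μ := ⟨J.toLinearMap, hJn⟩
  set F : ℤ → Lp ℂ 2 μ := fun n => J (fourierLp 2 n)
  have hF : Orthonormal ℂ F := orthonormal_fourier.comp_linearIsometry Ji
  set U : Lp ℂ 2 μ →L[ℂ] Lp ℂ 2 μ :=
    (Lp.compMeasurePreservingₗᵢ ℂ T hT).toContinuousLinearMap
  have hUapp : ∀ g, U g = Lp.compMeasurePreserving T hT g := fun g => rfl
  have hL := D.vanish (U.comp (J.comp (toT.comp (ContinuousLinearMap.mul ℂ C(UnitAddCircle, ℂ) (fourier 1)))) -
      J.comp toT) fun k i hi => by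
    have h1 : fourier 1 * (fourier (i : ℤ) * D.G k) = fourier ((i + 1 : ℕ) : ℤ) * D.G k := by
      ext x
      simp only [ContinuousMap.mul_apply, Nat.cast_add, Nat.cast_one, fourier_mul_apply]
      ring
    simp only [sub_apply, ContinuousLinearMap.comp_apply,
      ContinuousLinearMap.mul_apply', h1]
    change U (J (D.w k (i + 1))) - J (D.w k i) = 0
    rw [hJw _ _ hi, hJw _ _ (Nat.lt_of_succ_lt hi), hUapp, hU k i hi, sub_self]
  have hUF : ∀ n, U (F (n + 1)) = F n := fun n => by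
    have h2 := congrArg (fun Φ : C(UnitAddCircle, ℂ) →L[ℂ] Lp ℂ 2 μ => Φ (fourier n)) hL
    have h1 : fourier 1 * fourier n = (fourier (n + 1) : C(UnitAddCircle, ℂ)) := by
      ext x
      rw [ContinuousMap.mul_apply, ← fourier_mul_apply, add_comm]
    simp only [sub_apply, ContinuousLinearMap.comp_apply,
      ContinuousLinearMap.mul_apply', h1, zero_apply, sub_eq_zero] at h2
    exact h2
  have hJχ : ∀ x z, ⟪J x, χ z⟫_ℂ = 0 := fun x z => by
    refine hd.induction_on x (isClosed_eq (by fun_prop) (by fun_prop)) fun c => ?_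
    rw [hJe]
    simp only [f, Finsupp.linearCombination_apply, Finsupp.sum, sum_inner, inner_smul_left]
    exact sum_eq_zero fun p _ => by rw [hvχ p.1 p.2 p.2.2 z, mul_zero]
  set u : ℤ ⊕ {z : ℂ | ∃ m : ℕ, z ^ 2 ^ m = 1} → Lp ℂ 2 μ := Sum.elim (fun n => F (-n)) χ with hu_def
  have hu : Orthonormal ℂ u := by
    classical
    rw [orthonormal_iff_ite]
    rintro (a | a) (b | b)
    · change ⟪F (-a), F (-b)⟫_ℂ = _
      rw [orthonormal_iff_ite.1 hF]
      simp only [neg_inj, Sum.inl.injEq]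
    · simp only [u, Sum.elim_inl, Sum.elim_inr, reduceCtorEq, if_false]
      exact hJχ _ _
    · simp only [u, Sum.elim_inl, Sum.elim_inr, reduceCtorEq, if_false]
      exact inner_eq_zero_symm.1 (hJχ _ _)
    · simp only [u, Sum.elim_inr, Sum.inr.injEq]
      exact orthonormal_iff_ite.1 hχ a b
  have hsp : (Submodule.span ℂ (Set.range u))ᗮ = ⊥ := by
    rw [Submodule.eq_bot_iff]
    intro x hx
    rw [Submodule.mem_orthogonal] at hx
    have hJx : ∀ y, ⟪x, J y⟫_ℂ = 0 := by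
      have hΦ : (innerSL ℂ x).comp J = 0 := by
        refine ContinuousLinearMap.ext_on (Submodule.dense_iff_topologicalClosure_eq_top.2
          (span_fourierLp_closure_eq_top (T := (1 : ℝ)) (p := 2) (by simp))) ?_
        rintro _ ⟨n, rfl⟩
        have := inner_eq_zero_symm.1 (hx (F n) (Submodule.subset_span ⟨Sum.inl (-n), show F (-(-n)) = F n by rw [neg_neg]⟩))
        simpa [F] using this
      intro y
      exact congrArg (fun Φ : L2T →L[ℂ] ℂ => Φ y) hΦ
    rw [Submodule.eq_bot_iff] at htot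
    refine htot x ((Submodule.mem_orthogonal _ _).2 fun y hy => ?_)
    induction hy using Submodule.span_induction with
    | mem y hy =>
      rcases hy with ⟨z, rfl⟩ | ⟨k, i, hi, rfl⟩
      · exact hx _ (Submodule.subset_span ⟨Sum.inr z, rfl⟩)
      · rw [← hJw k i hi]
        exact inner_eq_zero_symm.1 (hJx _)
    | zero => simp
    | add y z _ _ e1 e2 => rw [inner_add_left, e1, e2, add_zero]
    | smul a y _ e => rw [inner_smul_left, e, mul_zero]
  refine ⟨X, mX, sX, μ, hμ, hna, T, hT, HilbertBasis.mkOfOrthogonalEqBot hu hsp, fun n => ?_, fun z => ?_⟩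
  · simp only [HilbertBasis.coe_mkOfOrthogonalEqBot, u, Sum.elim_inl]
    have := hUF (-(n + 1))
    rw [show -(n + 1) + 1 = -n by ring] at this
    rw [← hUapp]
    exact this
  · simp only [HilbertBasis.coe_mkOfOrthogonalEqBot, u, Sum.elim_inr]
    exact hχU z

end

end Vale.Agent.P130.Morse
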