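import Mathlib

/-!
P130: the word of signs of a Morse cocycle built from flat polynomials.
-/

namespace Vale.Agent.P130.Morse

open Finset

noncomputable section

/-- Block exponents, signs of the blocks and the flatness of the corresponding polynomials. -/
structure Data where
  /-- the level `k` has `2 ^ a k` positions -/
  a : ℕ → ℕ
  /-- the signs used at the level `k` -/
  eps : ℕ → ℕ → ℝ
  /-- the flatness of the level `k` -/
  c : ℕ → ℝ
  a_zero : a 0 = 0
  a_lt : ∀ k, a k < a (k + 1)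
  eps_zero : ∀ k, eps k 0 = 1
  eps_sign : ∀ k j, eps k j = 1 ∨ eps k j = -1
  c_bound : ∀ k, 0 ≤ c k ∧ c k ≤ (1 / 2) ^ (k + 2)
  flat : ∀ k, ∀ z : ℂ, ‖z‖ = 1 →
    |‖∑ j ∈ range (2 ^ (a (k + 1) - a k)), (eps k j : ℂ) * z ^ j‖ /
      Real.sqrt (2 ^ (a (k + 1) - a k) : ℕ) - 1| ≤ c k

namespace Data

variable (D : Data)

/-- The number of positions of the level `k`. -/
def H (k : ℕ) : ℕ := 2 ^ D.a k

/-- The number of blocks of the level `k`. -/
def N (k : ℕ) : ℕ := 2 ^ (D.a (k + 1) - D.a k)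

theorem H_pos (k : ℕ) : 0 < D.H k := pow_pos (by norm_num) _

theorem H_zero : D.H 0 = 1 := by simp [H, D.a_zero]

theorem N_pos (k : ℕ) : 0 < D.N k := pow_pos (by norm_num) _

theorem a_mono : Monotone D.a := monotone_nat_of_le_succ fun k => (D.a_lt k).le

theorem le_a (k : ℕ) : k ≤ D.a k := by
  induction k with
  | zero => simp
  | succ k ih => have := D.a_lt k; omega

theorem lt_H (k : ℕ) : k < D.H k :=
  lt_of_lt_of_le k.lt_two_pow_self (Nat.pow_le_pow_right (by norm_num) (D.le_a k))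

theorem H_succ (k : ℕ) : D.H (k + 1) = D.H k * D.N k := by
  rw [H, H, N, ← pow_add, Nat.add_sub_cancel' (D.a_lt k).le]

theorem H_dvd {k m : ℕ} (h : k ≤ m) : D.H k ∣ D.H m := pow_dvd_pow 2 (D.a_mono h)

theorem H_le {k m : ℕ} (h : k ≤ m) : D.H k ≤ D.H m := Nat.le_of_dvd (D.H_pos m) (D.H_dvd h)

/-- The word of the level `k`. -/
def W : ℕ → ℕ → ℝ
  | 0, _ => 1
  | k + 1, i => D.eps k (i / D.H k) * W k (i % D.H k)

theorem W_sign : ∀ k i, D.W k i = 1 ∨ D.W k i = -1
  | 0, _ => Or.inl rfl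
  | k + 1, i => by
    rcases D.eps_sign k (i / D.H k) with h | h <;>
      rcases W_sign k (i % D.H k) with h' | h' <;> simp [W, h, h']

theorem W_succ_of_lt {k i : ℕ} (h : i < D.H k) : D.W (k + 1) i = D.W k i := by
  rw [W, Nat.div_eq_of_lt h, Nat.mod_eq_of_lt h, D.eps_zero, one_mul]

theorem W_mono {k i : ℕ} (h : i < D.H k) {m : ℕ} (hm : k ≤ m) : D.W m i = D.W k i := by
  induction m, hm using Nat.le_induction with
  | base => rfl
  | succ m hm ih => rw [D.W_succ_of_lt (lt_of_lt_of_le h (D.H_le hm)), ih]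

/-- The word. -/
def B (i : ℕ) : ℝ := D.W i i

theorem B_sign (i : ℕ) : D.B i = 1 ∨ D.B i = -1 := D.W_sign i i

theorem B_sq (i : ℕ) : D.B i * D.B i = 1 := by
  rcases D.B_sign i with h | h <;> simp [h]

theorem B_zero : D.B 0 = 1 := rfl

theorem B_eq {k i : ℕ} (h : i < D.H k) : D.B i = D.W k i := by
  rcases le_total k i with hk | hk
  · exact D.W_mono h hk
  · exact (D.W_mono (D.lt_H i) hk).symm

theorem W_zero_right (k : ℕ) : D.W k 0 = 1 :=
  D.W_mono (k := 0) (i := 0) (D.H_pos 0) (Nat.zero_le k)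

theorem W_add {k i : ℕ} (hi : i < D.H k) {m : ℕ} (hm : k ≤ m) (j : ℕ)
    (hj : i + j * D.H k < D.H m) :
    D.W m (i + j * D.H k) = D.W k i * D.W m (j * D.H k) := by
  induction m, hm using Nat.le_induction generalizing j with
  | base =>
    have h0 : j = 0 := by
      rcases Nat.eq_zero_or_pos j with h | h
      · exact h
      · have := Nat.le_mul_of_pos_left (D.H k) h
        omega
    simp [h0, W_zero_right]
  | succ m hm ih =>
    obtain ⟨r, hr⟩ := D.H_dvd hm
    have hrpos : 0 < r := by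
      rcases Nat.eq_zero_or_pos r with h | h
      · exact absurd hr (by simp [h, (D.H_pos m).ne'])
      · exact h
    have hlt : i + j % r * D.H k < D.H m := by
      have h1 : j % r + 1 ≤ r := Nat.mod_lt _ hrpos
      have h2 := Nat.mul_le_mul_right (D.H k) h1
      rw [Nat.add_mul, one_mul, mul_comm r, ← hr] at h2
      omega
    have key : j * D.H k = j % r * D.H k + j / r * D.H m := by
      rw [hr]
      conv_lhs => rw [← Nat.mod_add_div j r]
      ring
    have hlt' : j % r * D.H k < D.H m := lt_of_le_of_lt (Nat.le_add_left _ _) hlt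
    have e1 : i + j * D.H k = (i + j % r * D.H k) + j / r * D.H m := by rw [key, add_assoc]
    rw [e1, key]
    simp only [W, Nat.add_mul_div_right _ _ (D.H_pos m), Nat.add_mul_mod_self_right,
      Nat.div_eq_of_lt hlt, Nat.div_eq_of_lt hlt', Nat.mod_eq_of_lt hlt, Nat.mod_eq_of_lt hlt',
      zero_add, ih _ hlt]
    ring

theorem B_add {k i : ℕ} (hi : i < D.H k) (j : ℕ) :
    D.B (i + j * D.H k) = D.B i * D.B (j * D.H k) := by
  set m := max k (i + j * D.H k) with hm
  have h1 : i + j * D.H k < D.H m := lt_of_le_of_lt (le_max_right _ _) (D.lt_H m)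
  rw [D.B_eq h1, D.B_eq hi, D.B_eq (k := m) (lt_of_le_of_lt (Nat.le_add_left _ _) h1)]
  exact D.W_add hi (le_max_left _ _) j h1

theorem B_block {k j : ℕ} (hj : j < D.N k) : D.B (j * D.H k) = D.eps k j := by
  have h : j * D.H k < D.H (k + 1) := by
    rw [D.H_succ, mul_comm j]; exact Nat.mul_lt_mul_of_pos_left hj (D.H_pos k)
  rw [D.B_eq h, W, Nat.mul_div_cancel _ (D.H_pos k), Nat.mul_mod_left, D.W_zero_right, mul_one]

end Data

end

end Vale.Agent.P130.Morse
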